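import Vale.Agent.P066.Theta.Ext

/-!
# The form `ω` on the exponents `epsExp m`, and the additivity of `epsExp`
-/

set_option autoImplicit false

open Finset

namespace Vale.Agent.P066.Theta

theorem sum_filter_le_fin {N : ℕ} (a : Fin N) (f : ℕ → ℤ) :
    ∑ i ∈ univ.filter (fun i : Fin N => i ≤ a), f (i : ℕ) = ∑ i ∈ range ((a : ℕ) + 1), f i := by
  refine Finset.sum_nbij (fun i : Fin N => (i : ℕ)) ?_ ?_ ?_ ?_
  · intro i hi
    have := (Finset.mem_filter.1 hi).2
    simpa using Nat.lt_succ_of_le (Fin.le_def.1 this)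
  · intro i _ j _ hij
    exact Fin.ext hij
  · intro i hi
    have hi' : i < (a : ℕ) + 1 := by simpa using hi
    refine ⟨⟨i, by omega⟩, ?_, rfl⟩
    simp only [coe_filter, mem_univ, true_and, Set.mem_ofPred_eq, Fin.le_def]
    omega
  · intro i _; rfl

theorem wE_zero_left (k b : ℕ) : wE k 0 b = 0 := by simp [wE]

theorem wE_zero_right (k a : ℕ) : wE k a 0 = 0 := by simp [wE]

theorem sum_extB {N : ℕ} (k : ℕ) (a b : Fin N) :
    ∑ i ∈ univ.filter (fun i : Fin N => i ≤ a), ∑ j ∈ univ.filter (fun j : Fin N => j ≤ b),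
      extB N k i j = wE k ((a : ℕ) + 1) ((b : ℕ) + 1) := by
  have h1 : ∀ i : Fin N, ∑ j ∈ univ.filter (fun j : Fin N => j ≤ b), extB N k i j =
      wE k ((i : ℕ) + 1) ((b : ℕ) + 1) - wE k (i : ℕ) ((b : ℕ) + 1) := by
    intro i
    have h2 := sum_filter_le_fin b (fun j => (wE k ((i : ℕ) + 1) (j + 1) - wE k (i : ℕ) (j + 1)) -
      (wE k ((i : ℕ) + 1) j - wE k (i : ℕ) j))
    have h3 := Finset.sum_range_sub (fun j => wE k ((i : ℕ) + 1) j - wE k (i : ℕ) j) ((b : ℕ) + 1)
    rw [← h2] at h3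
    simp only [wE_zero_right, sub_zero] at h3
    rw [← h3]
    refine Finset.sum_congr rfl fun j _ => ?_
    simp only [extB]
    ring
  simp only [h1]
  have h4 := sum_filter_le_fin a (fun i => wE k (i + 1) ((b : ℕ) + 1) - wE k i ((b : ℕ) + 1))
  rw [h4, Finset.sum_range_sub (fun i => wE k i ((b : ℕ) + 1))]
  simp [wE_zero_left]

/-- `ω(ε^m, ε^{m'}) = ∑_{a,b} m_a m'_b ω(ε_{a+1}, ε_{b+1})`. -/
theorem omega_epsExp {N : ℕ} (k : ℕ) (m m' : Fin N → ℕ) :
    omega (extB N k) (toZ (epsExp m)) (toZ (epsExp m')) =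
      ∑ a, ∑ b, (m a : ℤ) * (m' b : ℤ) * wE k ((a : ℕ) + 1) ((b : ℕ) + 1) := by
  have e1 : ∀ (m : Fin N → ℕ) (i : Fin N), toZ (epsExp m) i =
      ∑ a, if i ≤ a then (m a : ℤ) else 0 := by
    intro m i
    simp [toZ, epsExp, Finset.sum_filter]
  have e2 : ∀ a b : Fin N, wE k ((a : ℕ) + 1) ((b : ℕ) + 1) =
      ∑ i, ∑ j, (if i ≤ a then (if j ≤ b then extB N k i j else 0) else 0) := by
    intro a b
    rw [← sum_extB k a b, Finset.sum_filter]
    refine Finset.sum_congr rfl fun i _ => ?_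
    split_ifs
    · rw [Finset.sum_filter]
    · simp
  calc omega (extB N k) (toZ (epsExp m)) (toZ (epsExp m'))
      = ∑ i, ∑ j, ∑ a, ∑ b, (if i ≤ a then (m a : ℤ) else 0) * extB N k i j *
          (if j ≤ b then (m' b : ℤ) else 0) := by
        unfold omega
        refine Finset.sum_congr rfl fun i _ => Finset.sum_congr rfl fun j _ => ?_
        rw [e1, e1, Finset.sum_mul, Finset.sum_mul]
        refine Finset.sum_congr rfl fun a _ => ?_
        rw [Finset.mul_sum]
    _ = ∑ a, ∑ b, ∑ i, ∑ j, (if i ≤ a then (m a : ℤ) else 0) * extB N k i j *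
          (if j ≤ b then (m' b : ℤ) else 0) := by
        rw [Finset.sum_congr rfl fun i _ => Finset.sum_comm]
        rw [Finset.sum_comm]
        refine Finset.sum_congr rfl fun a _ => ?_
        rw [Finset.sum_congr rfl fun i _ => Finset.sum_comm]
        rw [Finset.sum_comm]
    _ = _ := by
        refine Finset.sum_congr rfl fun a _ => Finset.sum_congr rfl fun b _ => ?_
        rw [e2, Finset.mul_sum]
        refine Finset.sum_congr rfl fun i _ => ?_
        rw [Finset.mul_sum]
        refine Finset.sum_congr rfl fun j _ => ?_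
        split_ifs <;> ring

theorem omega_epsSet {N : ℕ} (k : ℕ) (I J : Finset (Fin N)) :
    omega (extB N k) (toZ (epsSet I)) (toZ (epsSet J)) =
      ∑ a ∈ I, ∑ b ∈ J, wE k ((a : ℕ) + 1) ((b : ℕ) + 1) := by
  unfold epsSet
  rw [omega_epsExp]
  rw [← Finset.sum_filter_add_sum_filter_not univ (fun a => a ∈ I)]
  have h0 : ∑ a ∈ univ.filter (fun a => ¬ a ∈ I), ∑ b, (((if a ∈ I then 1 else 0 : ℕ) : ℤ) *
      ((if b ∈ J then 1 else 0 : ℕ) : ℤ) * wE k ((a : ℕ) + 1) ((b : ℕ) + 1)) = 0 := by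
    refine Finset.sum_eq_zero fun a ha => ?_
    have := (Finset.mem_filter.1 ha).2
    simp [this]
  rw [h0, add_zero]
  have h1 : univ.filter (fun a => a ∈ I) = I := by ext; simp
  rw [h1]
  refine Finset.sum_congr rfl fun a ha => ?_
  rw [← Finset.sum_filter_add_sum_filter_not univ (fun b => b ∈ J)]
  have h2 : ∑ b ∈ univ.filter (fun b => ¬ b ∈ J), (((if a ∈ I then 1 else 0 : ℕ) : ℤ) *
      ((if b ∈ J then 1 else 0 : ℕ) : ℤ) * wE k ((a : ℕ) + 1) ((b : ℕ) + 1)) = 0 := by
    refine Finset.sum_eq_zero fun b hb => ?_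
    have := (Finset.mem_filter.1 hb).2
    simp [this]
  rw [h2, add_zero]
  have h3 : univ.filter (fun b => b ∈ J) = J := by ext; simp
  rw [h3]
  refine Finset.sum_congr rfl fun b hb => ?_
  simp [ha, hb]

theorem epsExp_add {N : ℕ} (m m' : Fin N → ℕ) : epsExp (m + m') = epsExp m + epsExp m' := by
  ext j
  simp [epsExp, Finset.sum_add_distrib]

theorem epsExp_zero {N : ℕ} : epsExp (0 : Fin N → ℕ) = 0 := by
  ext j
  simp [epsExp]

theorem epsExp_sum {N : ℕ} {ι : Type*} (s : Finset ι) (m : ι → Fin N → ℕ) :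
    epsExp (∑ i ∈ s, m i) = ∑ i ∈ s, epsExp (m i) := by
  classical
  induction s using Finset.induction_on with
  | empty => simp [epsExp_zero]
  | insert i s hi ih => rw [Finset.sum_insert hi, Finset.sum_insert hi, epsExp_add, ih]

theorem epsExp_apply {N : ℕ} (m : Fin N → ℕ) (j : Fin N) :
    epsExp m j = ∑ a ∈ univ.filter (fun a => j ≤ a), m a := by
  simp [epsExp]

theorem epsExp_injective {N : ℕ} : Function.Injective (epsExp (N := N)) := by
  intro m m' h
  -- strong induction from the top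
  have key : ∀ n : ℕ, ∀ j : Fin N, N - 1 - (j : ℕ) = n → m j = m' j := by
    intro n
    induction n using Nat.strong_induction_on with
    | _ n ih =>
      intro j hj
      have h1 : epsExp m j = epsExp m' j := by rw [h]
      rw [epsExp_apply, epsExp_apply] at h1
      have h2 : univ.filter (fun a => j ≤ a) = insert j (univ.filter (fun a => j < a)) := by
        ext a
        simp [le_iff_eq_or_lt, eq_comm]
      rw [h2, Finset.sum_insert (by simp), Finset.sum_insert (by simp)] at h1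
      have h3 : ∑ a ∈ univ.filter (fun a => j < a), m a =
          ∑ a ∈ univ.filter (fun a => j < a), m' a := by
        refine Finset.sum_congr rfl fun a ha => ?_
        have ha' := (Finset.mem_filter.1 ha).2
        have hlt : (j : ℕ) < a := ha'
        exact ih (N - 1 - (a : ℕ)) (by omega) a rfl
      omega
  funext j
  exact key _ j rfl

end Vale.Agent.P066.Theta
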