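import Vale.Agent.P066.Theta.H403.Omega
import Vale.Agent.P066.Defs

/-!
# The polynomials `G N k M η` at greedy exponents and at multiplicity free exponents
-/

set_option autoImplicit false

open Finset

namespace Vale.Agent.P066.Theta

theorem sum_epsSet_eq_iff {M N : ℕ} (I : Fin M → Finset (Fin N)) (m : Fin N → ℕ) :
    ∑ i, epsSet (I i) = epsExp m ↔ ∀ a, (univ.filter (fun i => a ∈ I i)).card = m a := by
  have h1 : ∑ i, epsSet (I i) = epsExp (fun a => (univ.filter (fun i => a ∈ I i)).card) := by
    unfold epsSet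
    rw [← epsExp_sum]
    congr 1
    funext a
    rw [Finset.sum_apply, Finset.card_filter]
  rw [h1, epsExp_injective.eq_iff, funext_iff]

theorem wE_greedy {k a b : ℕ} (ha : (k + 1) ∣ a) (hb : (k + 1) ∣ b) : wE k (a + 1) (b + 1) = 0 := by
  obtain ⟨c, rfl⟩ := ha
  obtain ⟨d, rfl⟩ := hb
  unfold wE
  have key : ∀ x y : ℕ, x < y → (k + 1) * x + k < (k + 1) * y := by
    intro x y hxy
    have : (k + 1) * (x + 1) ≤ (k + 1) * y := Nat.mul_le_mul_left _ hxy
    nlinarith
  rcases lt_trichotomy c d with h | h | h
  · have := key c d h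
    rw [if_neg (by omega), if_neg (by omega), if_neg (by omega)]
  · subst h
    rw [if_neg (by omega), if_neg (by omega), if_neg (by omega)]
  · have := key d c h
    rw [if_neg (by omega), if_neg (by omega), if_neg (by omega)]

theorem stable_greedy {N k : ℕ} (I : Finset (Fin N)) (hI : ∀ a ∈ I, (k + 1) ∣ (a : ℕ)) :
    Stable k I := by
  intro a ha b hb hab
  obtain ⟨c, hc⟩ := hI a ha
  obtain ⟨d, hd⟩ := hI b hb
  have hab' : (a : ℕ) < b := hab
  rw [hc, hd] at hab' ⊢
  have hcd : c < d := lt_of_mul_lt_mul_left hab' (Nat.zero_le _)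
  have : (k + 1) * (c + 1) ≤ (k + 1) * d := Nat.mul_le_mul_left _ hcd
  nlinarith

theorem famWeight_eq {M N : ℕ} (k : ℕ) (I : Fin M → Finset (Fin N)) :
    famWeight k I = ∑ i, ∑ j ∈ Finset.Ioi i, ∑ a ∈ I i, ∑ b ∈ I j,
      wE k ((a : ℕ) + 1) ((b : ℕ) + 1) := by
  unfold famWeight
  simp only [omega_epsSet]

theorem famWeight_greedy {M N k : ℕ} (I : Fin M → Finset (Fin N))
    (hI : ∀ i, ∀ a ∈ I i, (k + 1) ∣ (a : ℕ)) : famWeight k I = 0 := by
  rw [famWeight_eq]
  refine Finset.sum_eq_zero fun i _ => Finset.sum_eq_zero fun j _ => Finset.sum_eq_zero fun a ha =>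
    Finset.sum_eq_zero fun b hb => wE_greedy (hI i a ha) (hI j b hb)

/-- `G` at an exponent supported on the greedy vertices is a product of elementary symmetric
polynomials. -/
theorem G_greedy {N k M : ℕ} (m : Fin N → ℕ) (hm : ∀ a, m a ≠ 0 → (k + 1) ∣ (a : ℕ)) :
    G N k M (epsExp m) = ∏ a, MvPolynomial.esymm (Fin M) K (m a) := by
  classical
  have hG : G N k M (epsExp m) = ∑ I ∈ (univ : Finset (Fin M → Finset (Fin N))).filter
      (fun I => ∀ a, (univ.filter (fun i => a ∈ I i)).card = m a),
      ∏ i, (MvPolynomial.X i : MvPolynomial (Fin M) K) ^ (I i).card := by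
    unfold G
    refine Finset.sum_congr ?_ ?_
    · ext I
      simp only [mem_filter, mem_univ, true_and]
      rw [sum_epsSet_eq_iff]
      constructor
      · exact fun h => h.2
      · intro h
        refine ⟨fun i => stable_greedy _ fun a ha => hm a ?_, h⟩
        rw [← h a]
        exact Finset.card_ne_zero_of_mem (a := i) (by simpa using ha)
    · intro I hI
      simp only [mem_filter, mem_univ, true_and] at hI
      have h0 : famWeight k I = 0 := by
        refine famWeight_greedy I fun i a ha => hm a ?_
        rw [← hI a]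
        exact Finset.card_ne_zero_of_mem (a := i) (by simpa using ha)
      rw [h0, zpow_zero, map_one, one_mul]
  rw [hG]
  unfold MvPolynomial.esymm
  rw [Finset.prod_univ_sum]
  refine Finset.sum_bij' (fun I _ => fun a => univ.filter (fun i => a ∈ I i))
    (fun J _ => fun i => univ.filter (fun a => i ∈ J a)) ?_ ?_ ?_ ?_ ?_
  · intro I hI
    simp only [mem_filter, mem_univ, true_and] at hI
    simp only [Fintype.mem_piFinset, mem_powersetCard, subset_univ, true_and]
    exact hI
  · intro J hJ
    simp only [Fintype.mem_piFinset, mem_powersetCard, subset_univ, true_and] at hJ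
    simp only [mem_filter, mem_univ, true_and]
    intro a
    rw [← hJ a]
    congr 1
    ext i
    simp
  · intro I _
    funext i
    ext a
    simp
  · intro J _
    funext a
    ext i
    simp
  · intro I _
    have h1 : ∀ i : Fin M, (MvPolynomial.X i : MvPolynomial (Fin M) K) ^ (I i).card =
        ∏ a : Fin N, if a ∈ I i then MvPolynomial.X i else 1 := by
      intro i
      rw [Finset.prod_ite_mem]
      simp
    have h2 : ∀ a : Fin N, (∏ i ∈ univ.filter (fun i => a ∈ I i),
        (MvPolynomial.X i : MvPolynomial (Fin M) K)) =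
        ∏ i : Fin M, if a ∈ I i then MvPolynomial.X i else 1 := by
      intro a
      rw [Finset.prod_filter]
    simp only [h1, h2]
    rw [Finset.prod_comm]

/-- `G` at the greedy exponents `p_λ`. -/
theorem G_pExp {N k M : ℕ} (lam : ℕ → ℕ) :
    G N k M (epsExp (pExp k lam)) =
      ∏ l ∈ (range N).filter (fun l => l * (k + 1) < N),
        MvPolynomial.esymm (Fin M) K (lam l) := by
  classical
  rw [G_greedy]
  · have h1 : ∀ a : Fin N, MvPolynomial.esymm (Fin M) K (pExp k lam a) =
        if (k + 1) ∣ (a : ℕ) then MvPolynomial.esymm (Fin M) K (lam ((a : ℕ) / (k + 1))) else 1 := by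
      intro a
      unfold pExp
      split_ifs
      · rfl
      · simp
    simp only [h1]
    rw [← Finset.prod_filter]
    refine Finset.prod_bij' (fun a _ => (a : ℕ) / (k + 1))
      (fun l hl => ⟨l * (k + 1), (Finset.mem_filter.1 hl).2⟩) ?_ ?_ ?_ ?_ ?_
    · intro a ha
      simp only [mem_filter, mem_univ, true_and] at ha
      simp only [mem_filter, mem_range]
      have h2 : (a : ℕ) / (k + 1) * (k + 1) = a := Nat.div_mul_cancel ha
      refine ⟨lt_of_le_of_lt (Nat.div_le_self _ _) a.2, ?_⟩
      rw [h2]
      exact a.2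
    · intro l hl
      simp
    · intro a ha
      simp only [mem_filter, mem_univ, true_and] at ha
      exact Fin.ext (Nat.div_mul_cancel ha)
    · intro l hl
      simp
    · intro a ha
      rfl
  · intro a ha
    unfold pExp at ha
    by_contra h
    simp [h] at ha

end Vale.Agent.P066.Theta
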