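import Vale.Agent.P066.Theta.H403.GCount
import Vale.Agent.P066.Theta.H615.Ring

/-!
# Products of the `E_d` as coefficients of the polynomials `G N k M η`
-/

set_option autoImplicit false

open Finset

namespace Vale.Agent.P066.Theta

theorem epsSet_injective {N : ℕ} : Function.Injective (epsSet (N := N)) := by
  intro I J h
  have h1 := epsExp_injective h
  ext a
  have h2 := congrFun h1 a
  by_cases ha : a ∈ I <;> by_cases hb : a ∈ J <;> simp_all

theorem omega_toZ_sum {r : ℕ} (B : Matrix (Fin r) (Fin r) ℤ) {ι : Type*} (s : Finset ι)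
    (x : Fin r → ℤ) (y : ι → Fin r →₀ ℕ) :
    omega B x (toZ (∑ i ∈ s, y i)) = ∑ i ∈ s, omega B x (toZ (y i)) := by
  classical
  induction s using Finset.induction_on with
  | empty => simp
  | insert i s hi ih => rw [Finset.sum_insert hi, Finset.sum_insert hi, toZ_add, omega_add_right, ih]

open Classical in
theorem Ek_apply (N k d : ℕ) (η : Fin N →₀ ℕ) :
    Ek N k d η = ∑ J : Finset (Fin N), if (Stable k J ∧ J.card = d) ∧ epsSet J = η then 1 else 0 := by
  unfold Ek
  by_cases h : ∃ I : Finset (Fin N), Stable k I ∧ I.card = d ∧ epsSet I = η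
  · rw [if_pos h]
    obtain ⟨I, h1, h2, h3⟩ := h
    rw [Finset.sum_eq_single I]
    · rw [if_pos ⟨⟨h1, h2⟩, h3⟩]
    · intro J _ hJ
      rw [if_neg]
      rintro ⟨_, h4⟩
      exact hJ (epsSet_injective (h4.trans h3.symm))
    · intro hI
      exact absurd (Finset.mem_univ I) hI
  · rw [if_neg h]
    symm
    refine Finset.sum_eq_zero fun J _ => ?_
    rw [if_neg]
    rintro ⟨⟨h1, h2⟩, h3⟩
    exact h ⟨J, h1, h2, h3⟩

theorem famWeight_cons {M N : ℕ} (k : ℕ) (J : Finset (Fin N)) (I : Fin M → Finset (Fin N)) :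
    famWeight k (Fin.cons J I : Fin (M + 1) → Finset (Fin N)) =
      omega (extB N k) (toZ (epsSet J)) (toZ (∑ i, epsSet (I i))) + famWeight k I := by
  unfold famWeight
  rw [Fin.sum_univ_succ]
  congr 1
  · rw [omega_toZ_sum, Fin.Ioi_zero_eq_map, Finset.sum_map]
    simp
  · refine Finset.sum_congr rfl fun i _ => ?_
    rw [Fin.Ioi_succ, Finset.sum_map]
    simp

open Classical in
theorem prod_Ek (N k M : ℕ) (mu : Fin M → ℕ) (η : Fin N →₀ ℕ) :
    ((List.ofFn fun i : Fin M => Ek N k (mu i)).prod : QSeries (extB N k)) η =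
      ∑ I : Fin M → Finset (Fin N),
        if (∀ i, Stable k (I i) ∧ (I i).card = mu i) ∧ ∑ i, epsSet (I i) = η
          then v ^ famWeight k I else 0 := by
  induction M generalizing η with
  | zero =>
    rw [List.ofFn_zero, List.prod_nil, QSeries.one_apply]
    rw [Fintype.sum_unique]
    by_cases h : η = 0
    · subst h
      simp [famWeight]
    · rw [if_neg h, if_neg]
      rintro ⟨_, h1⟩
      simp at h1
      exact h h1.symm
  | succ M ih =>
    rw [List.ofFn_succ, List.prod_cons, QSeries.mul_apply]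
    rw [← (Fin.consEquiv (fun _ : Fin (M + 1) => Finset (Fin N))).sum_comp, Fintype.sum_prod_type]
    have h1 : ∀ p ∈ antidiagonal η, v ^ omega (extB N k) (toZ p.1) (toZ p.2) *
        Ek N k (mu 0) p.1 *
        ((List.ofFn fun i : Fin M => Ek N k (mu i.succ)).prod : QSeries (extB N k)) p.2 =
        ∑ J : Finset (Fin N), ∑ I : Fin M → Finset (Fin N),
          (v ^ omega (extB N k) (toZ p.1) (toZ p.2) *
            (if (Stable k J ∧ J.card = mu 0) ∧ epsSet J = p.1 then 1 else 0)) *
            (if (∀ i, Stable k (I i) ∧ (I i).card = mu i.succ) ∧ ∑ i, epsSet (I i) = p.2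
              then v ^ famWeight k I else 0) := by
      intro p _
      rw [Ek_apply, Finset.mul_sum, Finset.sum_mul]
      refine Finset.sum_congr rfl fun J _ => ?_
      rw [ih, Finset.mul_sum]
    rw [Finset.sum_congr rfl h1, Finset.sum_comm]
    refine Finset.sum_congr rfl fun J _ => ?_
    rw [Finset.sum_comm]
    refine Finset.sum_congr rfl fun I _ => ?_
    have h2 : (Fin.consEquiv (fun _ : Fin (M + 1) => Finset (Fin N))) (J, I) =
      (Fin.cons J I : Fin (M + 1) → Finset (Fin N)) := rfl
    rw [h2, famWeight_cons]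
    have h3 : ((∀ i, Stable k ((Fin.cons J I : Fin (M + 1) → Finset (Fin N)) i) ∧
        ((Fin.cons J I : Fin (M + 1) → Finset (Fin N)) i).card = mu i) ∧
        ∑ i, epsSet ((Fin.cons J I : Fin (M + 1) → Finset (Fin N)) i) = η) ↔
        ((Stable k J ∧ J.card = mu 0) ∧
          (∀ i, Stable k (I i) ∧ (I i).card = mu i.succ)) ∧
            epsSet J + ∑ i, epsSet (I i) = η := by
      rw [Fin.forall_fin_succ, Fin.sum_univ_succ]
      simp
    simp only [h3]
    by_cases hA : Stable k J ∧ J.card = mu 0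
    · by_cases hB : ∀ i, Stable k (I i) ∧ (I i).card = mu i.succ
      · by_cases hC : epsSet J + ∑ i, epsSet (I i) = η
        · rw [if_pos ⟨⟨hA, hB⟩, hC⟩]
          rw [Finset.sum_eq_single (epsSet J, ∑ i, epsSet (I i))]
          · rw [if_pos ⟨hA, rfl⟩, if_pos ⟨hB, rfl⟩, mul_one, zpow_add₀ v_ne_zero]
          · rintro ⟨p1, p2⟩ hp hne
            by_cases h4 : epsSet J = p1
            · by_cases h5 : ∑ i, epsSet (I i) = p2
              · exact absurd (by rw [h4, h5]) hne
              · exact mul_eq_zero_of_right _ (if_neg (fun h => h5 h.2))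
            · exact mul_eq_zero_of_left (mul_eq_zero_of_right _ (if_neg (fun h => h4 h.2))) _
          · intro hp
            exact absurd (Finset.HasAntidiagonal.mem_antidiagonal.2 hC) hp
        · rw [if_neg (fun h => hC h.2)]
          refine Finset.sum_eq_zero ?_
          rintro ⟨p1, p2⟩ hp
          have hp' := Finset.HasAntidiagonal.mem_antidiagonal.1 hp
          by_cases h4 : epsSet J = p1
          · by_cases h5 : ∑ i, epsSet (I i) = p2
            · exact absurd (by rw [h4, h5]; exact hp') hC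
            · exact mul_eq_zero_of_right _ (if_neg (fun h => h5 h.2))
          · exact mul_eq_zero_of_left (mul_eq_zero_of_right _ (if_neg (fun h => h4 h.2))) _
      · rw [if_neg (fun h => hB h.1.2)]
        refine Finset.sum_eq_zero fun p _ => ?_
        exact mul_eq_zero_of_right _ (if_neg (fun h => hB h.1))
    · rw [if_neg (fun h => hA h.1.1)]
      refine Finset.sum_eq_zero fun p _ => ?_
      exact mul_eq_zero_of_left (mul_eq_zero_of_right _ (if_neg (fun h => hA h.1))) _

/-- The ordered product of the `E_{μ_i}` is the coefficient of `t^μ` of `G`. -/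
theorem prod_Ek_eq_coeff (N k M : ℕ) (mu : Fin M → ℕ) (η : Fin N →₀ ℕ) :
    ((List.ofFn fun i : Fin M => Ek N k (mu i)).prod : QSeries (extB N k)) η =
      MvPolynomial.coeff (Finsupp.equivFunOnFinite.symm mu) (G N k M η) := by
  classical
  rw [prod_Ek]
  unfold G
  rw [MvPolynomial.coeff_sum, Finset.sum_filter]
  refine Finset.sum_congr rfl fun I _ => ?_
  have h1 : (∏ i, (MvPolynomial.X i : MvPolynomial (Fin M) K) ^ (I i).card) =
      MvPolynomial.monomial (Finsupp.equivFunOnFinite.symm fun i => (I i).card) 1 := by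
    rw [MvPolynomial.monomial_eq, map_one, one_mul, Finsupp.prod_fintype _ _ (by simp)]
    simp
  rw [h1, MvPolynomial.coeff_C_mul, MvPolynomial.coeff_monomial]
  have h2 : ((Finsupp.equivFunOnFinite.symm fun i => (I i).card) =
      Finsupp.equivFunOnFinite.symm mu) ↔ ∀ i, (I i).card = mu i := by
    rw [Equiv.apply_eq_iff_eq, funext_iff]
  simp only [h2]
  by_cases hA : (∀ i, Stable k (I i)) ∧ ∑ i, epsSet (I i) = η
  · rw [if_pos hA]
    by_cases hB : ∀ i, (I i).card = mu i
    · rw [if_pos hB, if_pos ⟨fun i => ⟨hA.1 i, hB i⟩, hA.2⟩, mul_one]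
    · rw [if_neg hB, if_neg (fun h => hB fun i => (h.1 i).2), mul_zero]
  · rw [if_neg hA, if_neg (fun h => hA ⟨fun i => (h.1 i).1, h.2⟩)]

end Vale.Agent.P066.Theta
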