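import Vale.Agent.P066.Theta.H403.GCount

/-!
# The polynomials `G N k M η` at multiplicity free exponents: chromatic quasisymmetric functions
-/

set_option autoImplicit false

open Finset

namespace Vale.Agent.P066.Theta

/-- The number of edges of `G(h)`. -/
noncomputable def numEdges {n : ℕ} (h : Fin n → Fin n) : ℕ := by
  classical
  exact #{p : Fin n × Fin n | p.1 < p.2 ∧ (unitIntervalGraph h).Adj p.1 p.2}

/-- The chromatic quasisymmetric function of `G(h)`, normalized:
`∑_f v^(|E| - 2 asc f) ∏ x_{f a}`. -/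
noncomputable def chromK {n : ℕ} (h : Fin n → Fin n) (M : ℕ) : MvPolynomial (Fin M) K := by
  classical
  exact ∑ f : Fin n → Fin M with (∀ a b, (unitIntervalGraph h).Adj a b → f a ≠ f b),
    MvPolynomial.C (v ^ ((numEdges h : ℤ) - 2 * (asc (unitIntervalGraph h) f : ℤ))) *
      ∏ a, MvPolynomial.X (f a)

/-- The family of colour classes, transported to `Fin N` by `φ`. -/
def colorFam {n N M : ℕ} (φ : Fin n → Fin N) (f : Fin n → Fin M) : Fin M → Finset (Fin N) :=
  fun i => (univ.filter (fun a => f a = i)).image φ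

theorem adj_iff_of_lt {n N k : ℕ} {φ : Fin n → Fin N} {h : Fin n → Fin n}
    (hh : ∀ i j, i < j → (j ≤ h i ↔ (φ j : ℕ) ≤ (φ i : ℕ) + k)) {a b : Fin n} (hab : a < b) :
    (unitIntervalGraph h).Adj a b ↔ (φ b : ℕ) ≤ (φ a : ℕ) + k := by
  rw [← hh a b hab]
  constructor
  · rintro (⟨_, h1⟩ | ⟨h1, _⟩)
    · exact h1
    · exact absurd hab (lt_asymm h1)
  · intro h1
    exact Or.inl ⟨hab, h1⟩

theorem wE_phi {n N k : ℕ} {φ : Fin n → Fin N} (hφ : StrictMono φ) {h : Fin n → Fin n}
    (hh : ∀ i j, i < j → (j ≤ h i ↔ (φ j : ℕ) ≤ (φ i : ℕ) + k)) (a b : Fin n) :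
    wE k ((φ a : ℕ) + 1) ((φ b : ℕ) + 1) =
      by classical exact
        (if b < a ∧ (unitIntervalGraph h).Adj b a then (1 : ℤ) else 0) -
          (if a < b ∧ (unitIntervalGraph h).Adj a b then (1 : ℤ) else 0) := by
  classical
  unfold wE
  rcases lt_trichotomy a b with hab | hab | hab
  · have h1 : (φ a : ℕ) < φ b := hφ hab
    have h2 := adj_iff_of_lt hh hab
    have h3 : ¬ (b < a) := lt_asymm hab
    by_cases hadj : (unitIntervalGraph h).Adj a b
    · have h4 := h2.1 hadj
      simp only [h3, hab, hadj, false_and, if_false, true_and, if_true]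
      rw [if_neg (by omega), if_neg (by omega), if_pos (by omega)]
      norm_num
    · have h4 : ¬ (φ b : ℕ) ≤ (φ a : ℕ) + k := fun h5 => hadj (h2.2 h5)
      simp only [h3, hab, hadj, false_and, if_false, and_false]
      rw [if_neg (by omega), if_neg (by omega), if_neg (by omega)]
      norm_num
  · subst hab
    simp
  · have h1 : (φ b : ℕ) < φ a := hφ hab
    have h2 := adj_iff_of_lt hh hab
    have h3 : ¬ (a < b) := lt_asymm hab
    by_cases hadj : (unitIntervalGraph h).Adj b a
    · have h4 := h2.1 hadj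
      simp only [h3, hab, hadj, false_and, if_false, true_and, if_true]
      rw [if_neg (by omega), if_pos (by omega)]
      norm_num
    · have h4 : ¬ (φ a : ℕ) ≤ (φ b : ℕ) + k := fun h5 => hadj (h2.2 h5)
      simp only [h3, hab, hadj, false_and, if_false, and_false]
      rw [if_neg (by omega), if_neg (by omega), if_neg (by omega)]
      norm_num

theorem sum_fiber_pairs {n M : ℕ} (f : Fin n → Fin M) (t : Fin n → Fin n → ℤ) :
    ∑ i, ∑ j ∈ Finset.Ioi i, ∑ a ∈ univ.filter (fun a => f a = i),
      ∑ b ∈ univ.filter (fun b => f b = j), t a b =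
    ∑ a, ∑ b ∈ univ.filter (fun b => f a < f b), t a b := by
  classical
  rw [← Finset.sum_fiberwise univ f (fun a => ∑ b ∈ univ.filter (fun b => f a < f b), t a b)]
  refine Finset.sum_congr rfl fun i _ => ?_
  rw [Finset.sum_comm]
  refine Finset.sum_congr rfl fun a ha => ?_
  have ha' : f a = i := (Finset.mem_filter.1 ha).2
  rw [← Finset.sum_fiberwise_of_maps_to (s := univ.filter (fun b => f a < f b))
    (t := Finset.Ioi i) (g := f) (fun b hb => by
      rw [Finset.mem_Ioi, ← ha']; exact (Finset.mem_filter.1 hb).2)]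
  refine Finset.sum_congr rfl fun j hj => ?_
  refine Finset.sum_congr ?_ fun _ _ => rfl
  ext b
  simp only [mem_filter, mem_univ, true_and]
  constructor
  · intro hb
    refine ⟨?_, hb⟩
    rw [ha', hb]
    exact Finset.mem_Ioi.1 hj
  · exact fun hb => hb.2

theorem famWeight_colorFam {n N k M : ℕ} {φ : Fin n → Fin N} (hφ : StrictMono φ)
    {h : Fin n → Fin n} (hh : ∀ i j, i < j → (j ≤ h i ↔ (φ j : ℕ) ≤ (φ i : ℕ) + k))
    (f : Fin n → Fin M) (hf : ∀ a b, (unitIntervalGraph h).Adj a b → f a ≠ f b) :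
    famWeight k (colorFam φ f) = (numEdges h : ℤ) - 2 * (asc (unitIntervalGraph h) f : ℤ) := by
  classical
  rw [famWeight_eq]
  have h1 : ∀ i j : Fin M, ∑ a ∈ colorFam φ f i, ∑ b ∈ colorFam φ f j,
      wE k ((a : ℕ) + 1) ((b : ℕ) + 1) =
      ∑ a ∈ univ.filter (fun a => f a = i), ∑ b ∈ univ.filter (fun b => f b = j),
        wE k ((φ a : ℕ) + 1) ((φ b : ℕ) + 1) := by
    intro i j
    unfold colorFam
    rw [Finset.sum_image (fun x _ y _ hxy => hφ.injective hxy)]
    refine Finset.sum_congr rfl fun a _ => ?_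
    rw [Finset.sum_image (fun x _ y _ hxy => hφ.injective hxy)]
  simp only [h1]
  rw [sum_fiber_pairs f (fun a b => wE k ((φ a : ℕ) + 1) ((φ b : ℕ) + 1))]
  simp only [Finset.sum_filter]
  have h2 : ∀ a b : Fin n, (if f a < f b then wE k ((φ a : ℕ) + 1) ((φ b : ℕ) + 1) else 0) =
      (if b < a ∧ (unitIntervalGraph h).Adj b a ∧ f a < f b then (1 : ℤ) else 0) -
        (if a < b ∧ (unitIntervalGraph h).Adj a b ∧ f a < f b then (1 : ℤ) else 0) := by
    intro a b
    rw [wE_phi hφ hh a b]
    by_cases hab : f a < f b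
    · simp [hab]
    · simp [hab]
  simp only [h2, Finset.sum_sub_distrib]
  have h3 : ∑ a : Fin n, ∑ b : Fin n,
      (if a < b ∧ (unitIntervalGraph h).Adj a b ∧ f a < f b then (1 : ℤ) else 0) =
      (asc (unitIntervalGraph h) f : ℤ) := by
    unfold asc
    rw [Finset.card_filter, Nat.cast_sum, Fintype.sum_prod_type]
    refine Finset.sum_congr rfl fun a _ => Finset.sum_congr rfl fun b _ => ?_
    split_ifs <;> simp
  have h4 : ∑ a : Fin n, ∑ b : Fin n,
      (if b < a ∧ (unitIntervalGraph h).Adj b a ∧ f a < f b then (1 : ℤ) else 0) =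
      ∑ a : Fin n, ∑ b : Fin n,
        (if a < b ∧ (unitIntervalGraph h).Adj a b ∧ f b < f a then (1 : ℤ) else 0) :=
    Finset.sum_comm
  have h5 : (numEdges h : ℤ) = ∑ a : Fin n, ∑ b : Fin n,
      (if a < b ∧ (unitIntervalGraph h).Adj a b then (1 : ℤ) else 0) := by
    unfold numEdges
    rw [Finset.card_filter, Nat.cast_sum, Fintype.sum_prod_type]
    refine Finset.sum_congr rfl fun a _ => Finset.sum_congr rfl fun b _ => ?_
    split_ifs <;> simp
  have h6 : (numEdges h : ℤ) = (∑ a : Fin n, ∑ b : Fin n,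
      (if a < b ∧ (unitIntervalGraph h).Adj a b ∧ f b < f a then (1 : ℤ) else 0)) +
      ∑ a : Fin n, ∑ b : Fin n,
      (if a < b ∧ (unitIntervalGraph h).Adj a b ∧ f a < f b then (1 : ℤ) else 0) := by
    rw [h5, ← Finset.sum_add_distrib]
    refine Finset.sum_congr rfl fun a _ => ?_
    rw [← Finset.sum_add_distrib]
    refine Finset.sum_congr rfl fun b _ => ?_
    by_cases h7 : a < b ∧ (unitIntervalGraph h).Adj a b
    · have h8 := hf a b h7.2
      rcases lt_or_gt_of_ne h8 with h9 | h9
      · simp [h7.1, h7.2, h9, lt_asymm h9]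
      · simp [h7.1, h7.2, h9, lt_asymm h9]
    · by_cases h8 : a < b
      · have h9 : ¬ (unitIntervalGraph h).Adj a b := fun h9 => h7 ⟨h8, h9⟩
        simp [h9]
      · simp [h8]
  rw [h4, h3]
  rw [h3] at h6
  linarith

theorem stable_colorFam {n N k M : ℕ} {φ : Fin n → Fin N} (hφ : StrictMono φ)
    {h : Fin n → Fin n} (hh : ∀ i j, i < j → (j ≤ h i ↔ (φ j : ℕ) ≤ (φ i : ℕ) + k))
    (f : Fin n → Fin M) (hf : ∀ a b, (unitIntervalGraph h).Adj a b → f a ≠ f b) (i : Fin M) :
    Stable k (colorFam φ f i) := by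
  intro a' ha' b' hb' hab
  unfold colorFam at ha' hb'
  obtain ⟨a, ha, rfl⟩ := Finset.mem_image.1 ha'
  obtain ⟨b, hb, rfl⟩ := Finset.mem_image.1 hb'
  have ha2 := (Finset.mem_filter.1 ha).2
  have hb2 := (Finset.mem_filter.1 hb).2
  have hlt : a < b := hφ.lt_iff_lt.1 hab
  by_contra hcon
  have h1 := (adj_iff_of_lt hh hlt).2 (by omega)
  exact hf a b h1 (ha2.trans hb2.symm)

/-- `G` at a multiplicity free exponent is (up to a power of `v`) the chromatic quasisymmetric
function. -/
theorem G_epsSet {n N k M : ℕ} (φ : Fin n → Fin N) (hφ : StrictMono φ)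
    (h : Fin n → Fin n) (hh : ∀ i j, i < j → (j ≤ h i ↔ (φ j : ℕ) ≤ (φ i : ℕ) + k)) :
    G N k M (epsSet (univ.image φ)) = chromK h M := by
  classical
  symm
  unfold G chromK
  refine Finset.sum_bij (fun f _ => colorFam φ f) ?_ ?_ ?_ ?_
  · intro f hf
    have hf' := (Finset.mem_filter.1 hf).2
    simp only [mem_filter, mem_univ, true_and]
    refine ⟨fun i => stable_colorFam hφ hh f hf' i, ?_⟩
    unfold epsSet
    rw [show (∑ i, epsExp fun a => if a ∈ colorFam φ f i then 1 else 0) =
      ∑ i, epsSet (colorFam φ f i) from rfl, sum_epsSet_eq_iff]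
    intro b
    split_ifs with hb
    · obtain ⟨a, _, rfl⟩ := Finset.mem_image.1 hb
      rw [Finset.card_eq_one]
      refine ⟨f a, ?_⟩
      ext i
      simp only [colorFam, mem_filter, mem_univ, true_and, mem_image, mem_singleton]
      constructor
      · rintro ⟨c, hc, hca⟩
        rw [← hc, hφ.injective hca]
      · intro hi
        exact ⟨a, hi.symm, rfl⟩
    · rw [Finset.card_eq_zero, Finset.filter_eq_empty_iff]
      intro i _ hi
      obtain ⟨a, _, rfl⟩ := Finset.mem_image.1 hi
      exact hb (Finset.mem_image.2 ⟨a, Finset.mem_univ _, rfl⟩)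
  · intro f _ g _ hfg
    funext a
    have h1 : φ a ∈ colorFam φ g (f a) := by
      rw [← hfg]
      exact Finset.mem_image.2 ⟨a, by simp, rfl⟩
    obtain ⟨b, hb, hba⟩ := Finset.mem_image.1 h1
    rw [← (Finset.mem_filter.1 hb).2, hφ.injective hba]
  · intro I hI
    simp only [mem_filter, mem_univ, true_and] at hI
    obtain ⟨hst, hsum⟩ := hI
    unfold epsSet at hsum
    rw [show (∑ i, epsExp fun a => if a ∈ I i then 1 else 0) = ∑ i, epsSet (I i) from rfl,
      sum_epsSet_eq_iff] at hsum
    have h1 : ∀ a : Fin n, ∃ i, φ a ∈ I i ∧ ∀ j, φ a ∈ I j → j = i := by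
      intro a
      have h2 := hsum (φ a)
      rw [if_pos (Finset.mem_image.2 ⟨a, Finset.mem_univ _, rfl⟩), Finset.card_eq_one] at h2
      obtain ⟨i, hi⟩ := h2
      refine ⟨i, ?_, ?_⟩
      · have : i ∈ univ.filter (fun i => φ a ∈ I i) := by rw [hi]; simp
        exact (Finset.mem_filter.1 this).2
      · intro j hj
        have : j ∈ univ.filter (fun i => φ a ∈ I i) := by simp [hj]
        rw [hi] at this
        simpa using this
    choose f hf1 hf2 using h1
    have hI : colorFam φ f = I := by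
      funext i
      ext b
      simp only [colorFam, mem_image, mem_filter, mem_univ, true_and]
      constructor
      · rintro ⟨a, ha, rfl⟩
        rw [← ha]
        exact hf1 a
      · intro hb
        have h2 := hsum b
        have h3 : b ∈ univ.image φ := by
          by_contra h4
          rw [if_neg h4, Finset.card_eq_zero, Finset.filter_eq_empty_iff] at h2
          exact h2 (Finset.mem_univ i) hb
        obtain ⟨a, _, rfl⟩ := Finset.mem_image.1 h3
        exact ⟨a, (hf2 a i hb).symm, rfl⟩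
    refine ⟨f, ?_, hI⟩
    simp only [mem_filter, mem_univ, true_and]
    have key : ∀ a b, a < b → (unitIntervalGraph h).Adj a b → f a ≠ f b := by
      intro a b hab hadj heq
      have h2 := (adj_iff_of_lt hh hab).1 hadj
      have h3 := hst (f a) (φ a) (hf1 a) (φ b) (by rw [heq]; exact hf1 b) (hφ hab)
      omega
    intro a b hadj
    rcases lt_trichotomy a b with hab | hab | hab
    · exact key a b hab hadj
    · subst hab
      exact absurd hadj ((unitIntervalGraph h).irrefl)
    · exact (key b a hab hadj.symm).symm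
  · intro f hf
    have hf' := (Finset.mem_filter.1 hf).2
    rw [famWeight_colorFam hφ hh f hf']
    congr 1
    rw [← Finset.prod_fiberwise univ f (fun a => (MvPolynomial.X (f a) : MvPolynomial (Fin M) K))]
    refine Finset.prod_congr rfl fun i _ => ?_
    unfold colorFam
    rw [Finset.card_image_of_injective _ hφ.injective, Finset.prod_congr rfl
      (fun a ha => by rw [(Finset.mem_filter.1 ha).2]), Finset.prod_const]

end Vale.Agent.P066.Theta
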